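import Vale.Agent.P181.FL2.Defs
import Vale.Agent.P181.H867.PowG
import Vale.Agent.P181.FLAT.H858.Glue
import Vale.Agent.P181.H530.Zero

set_option autoImplicit false

open scoped TensorProduct BigOperators

/-!
# P181, FL2 [WRDG], [WRDN]: from words to plethysms
-/

namespace Vale.Agent.P181.FL2.H605

open Finset MvPolynomial
open Vale.Agent.P181 Vale.Agent.P181.H280 Vale.Agent.P181.H867
open Vale.Agent.P181.FL (Pos HWW)
open Vale.Agent.P181.FLAT.H858 (wf wf_weight wf_low wf_inj)

variable {N q m n : ℕ}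

/-- Positions. -/
def pe (N q m : ℕ) : Pos N q m ≃ Fin N × Fin (q * m) :=
  (Equiv.prodAssoc (Fin N) (Fin q) (Fin m)).trans
    ((Equiv.refl (Fin N)).prodCongr finProdFinEquiv)

lemma pe_apply (i : Fin N) (k : Fin q) (s : Fin m) :
    pe N q m ((i, k), s) = (i, finProdFinEquiv (k, s)) := rfl

/-- The function on words. -/
noncomputable def fw (l : (Fin N → Fin (q * m) → (Fin n → ℂ)) →₀ ℂ) (w : Pos N q m → Fin n) : ℂ :=
  wf l (w ∘ (pe N q m).symm)

lemma fw_eq (l : (Fin N → Fin (q * m) → (Fin n → ℂ)) →₀ ℂ) (w : Pos N q m → Fin n) :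
    fw l w = formOf l (fun i => ∏ k : Fin q, ∏ s : Fin m,
      (X (w ((i, k), s)) : MvPolynomial (Fin n) ℂ)) := by
  rw [fw, wf]
  congr 1
  funext i
  rw [← Equiv.prod_comp finProdFinEquiv, Fintype.prod_prod_type]
  apply Finset.prod_congr rfl
  intro k _
  apply Finset.prod_congr rfl
  intro s _
  rw [Function.comp_apply, ← pe_apply, Equiv.symm_apply_apply]

lemma row_eq (w : Pos N q m → Fin n) (i : Fin N) :
    ∏ k : Fin q, ∏ s : Fin m, (X (w ((i, k), s)) : MvPolynomial (Fin n) ℂ) =
      ∏ p : Pos N q m, (if p.1.1 = i then (X (w p) : MvPolynomial (Fin n) ℂ) else 1) := by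
  rw [Fintype.prod_prod_type, Fintype.prod_prod_type]
  rw [Finset.prod_eq_single i]
  · apply Finset.prod_congr rfl
    intro k _
    apply Finset.prod_congr rfl
    intro s _
    rw [if_pos rfl]
  · intro i' _ hi'
    apply Finset.prod_eq_one
    intro k _
    apply Finset.prod_eq_one
    intro s _
    rw [if_neg hi']
  · intro h
    exact absurd (Finset.mem_univ _) h

lemma hww (lam : Fin n → ℕ) (l : (Fin N → Fin (q * m) → (Fin n → ℂ)) →₀ ℂ)
    (hx : elOf l ∈ hwSpace lam (plethAct N (q * m) n)) : HWW lam (fw l) where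
  wt := by
    intro w hw i
    have h1 := wf_weight lam l hx (w ∘ (pe N q m).symm) hw i
    rw [← h1]
    apply Finset.card_bij' (fun p _ => pe N q m p) (fun p _ => (pe N q m).symm p)
    · intro p hp
      rw [Finset.mem_filter] at hp ⊢
      refine ⟨Finset.mem_univ _, ?_⟩
      rw [Function.comp_apply, Equiv.symm_apply_apply]
      exact hp.2
    · intro p hp
      rw [Finset.mem_filter] at hp ⊢
      exact ⟨Finset.mem_univ _, hp.2⟩
    · intro p _
      exact Equiv.symm_apply_apply _ _
    · intro p _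
      exact Equiv.apply_symm_apply _ _
  hw := by
    classical
    intro i k hik w
    have h1 := wf_low lam l hx (w ∘ (pe N q m).symm) i k hik
    rw [Finset.sum_filter, ← Equiv.sum_comp (pe N q m)] at h1
    refine Eq.trans ?_ h1
    apply Finset.sum_congr rfl
    intro p _
    have h2 : (w ∘ (pe N q m).symm) (pe N q m p) = w p := by
      rw [Function.comp_apply, Equiv.symm_apply_apply]
    have h3 : Function.update w p k ∘ (pe N q m).symm =
        Function.update (w ∘ (pe N q m).symm) (pe N q m p) k := by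
      rw [Function.update_comp_equiv]
      rfl
    rw [h2, fw, h3]

/-- A permutation which respects the slots permutes the slots. -/
lemma slot_perm (e : Equiv.Perm (Pos N q m)) (he : Slot e) (hne : Nonempty (Fin q × Fin m)) :
    ∃ π : Equiv.Perm (Fin N), ∀ p, (e p).1.1 = π p.1.1 := by
  obtain ⟨k0, s0⟩ := hne
  have h1 : ∀ p, (e p).1.1 = (e ((p.1.1, k0), s0)).1.1 := fun p => he p ((p.1.1, k0), s0) rfl
  have h2 : Function.Surjective (fun i : Fin N => (e ((i, k0), s0)).1.1) := by
    intro j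
    refine ⟨(e.symm ((j, k0), s0)).1.1, ?_⟩
    show (e (((e.symm ((j, k0), s0)).1.1, k0), s0)).1.1 = j
    rw [← h1, Equiv.apply_symm_apply]
  exact ⟨Equiv.ofBijective _ (Finite.surjective_iff_bijective.1 h2), h1⟩

lemma fw_slot (l : (Fin N → Fin (q * m) → (Fin n → ℂ)) →₀ ℂ) (e : Equiv.Perm (Pos N q m))
    (he : Slot e) (w : Pos N q m → Fin n) : fw l (fun p => w (e p)) = fw l w := by
  rcases isEmpty_or_nonempty (Fin q × Fin m) with hE | hne
  · congr 1
    funext p
    exact (hE.false (p.1.2, p.2)).elim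
  obtain ⟨π, hπ⟩ := slot_perm e he hne
  rw [fw_eq, fw_eq]
  refine Eq.trans ?_ (formOf_symm l π (fun i => ∏ k : Fin q, ∏ s : Fin m,
    (X (w ((i, k), s)) : MvPolynomial (Fin n) ℂ)))
  congr 1
  funext i
  show _ = ∏ k : Fin q, ∏ s : Fin m, (X (w ((π i, k), s)) : MvPolynomial (Fin n) ℂ)
  rw [row_eq w (π i), ← Equiv.prod_comp e, row_eq (fun p => w (e p)) i]
  apply Finset.prod_congr rfl
  intro p _
  rw [hπ]
  by_cases h : p.1.1 = i
  · rw [if_pos h, if_pos (by rw [h])]
  · rw [if_neg h, if_neg (fun h' => h (π.injective h'))]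

lemma fw_pow (l : (Fin N → Fin (q * m) → (Fin n → ℂ)) →₀ ℂ)
    (h : ∀ G ∈ linS n ^ m, formOf l (fun _ => G ^ q) = 0) (w : Pos N q m → Fin n) :
    ∑ g : Equiv.Perm (Fin N × Fin q), fw l (fun p => w (blk m g p)) = 0 := by
  classical
  have h1 := polar (rowProd q (formOf l)) (linS n ^ m) (by
    intro G hG
    rw [rowProd_apply, ← h G hG]
    congr 1
    funext i
    rw [Finset.prod_const, Finset.card_univ, Fintype.card_fin])
    (fun ik : Fin N × Fin q => ∏ s : Fin m, (X (w (ik, s)) : MvPolynomial (Fin n) ℂ))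
    (fun ik => prod_mem_pow _ _ (fun s => X_mem_linS _))
  rw [← h1]
  apply Finset.sum_congr rfl
  intro g _
  rw [fw_eq, rowProd_apply]
  rfl

/-- The forms vanish if the statement on words holds. -/
theorem forms (M : ℕ) (h : WordG N q m n M) (lam : Fin n → ℕ) (hanti : Antitone lam)
    (hlam : ∀ i, lam i ≤ M) : FormsVanishG N q m n lam := by
  intro l hx h0 P hP
  have hf := h lam (fw l) hanti hlam (hww lam l hx) (fun e he w => fw_slot l e he w)
    (fun w => fw_pow l h0 w)
  apply multilinear_zero_of_span (formOf l)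
    (Set.range (fun c : Fin (q * m) → Fin n => ∏ j, (X (c j) : MvPolynomial (Fin n) ℂ)))
  · intro w hw
    choose c hc using hw
    rw [← hf (fun p => c p.1.1 (finProdFinEquiv (p.1.2, p.2))), fw_eq]
    congr 1
    funext i
    rw [← hc i]
    show ∏ j, (X (c i j) : MvPolynomial (Fin n) ℂ) = _
    rw [← Equiv.prod_comp finProdFinEquiv, Fintype.prod_prod_type]
  · intro i
    exact span_pow_eq _ _ (hP i)

/-- **[WRDN]** -/
theorem wrdN : WrdN := by
  intro N q m M _ h n lam hlam
  by_cases hz : plethMult N (q * m) n lam = 0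
  · rw [hz]
    exact Nat.zero_le _
  obtain ⟨hanti, _, _⟩ := H530.zero_stmt N (q * m) n lam hz
  exact plethMultG_le_of N q m n lam (forms M (h n) lam hanti hlam)

/-- **[WRDG]** -/
theorem wrdG : WrdG := fun a q M hq h n lam hlam => wrdN a q a M hq h n lam hlam

/-- The power map is injective on the highest weight vectors. -/
theorem injG (M : ℕ) (h : WordG N q m n M) (lam : Fin n → ℕ) (hanti : Antitone lam)
    (hlam : ∀ i, lam i ≤ M) (x : Sym[ℂ]^N (Sym[ℂ]^(q * m) (Fin n → ℂ)))
    (hx : x ∈ hwSpace lam (plethAct N (q * m) n)) (h0 : powMapG N q m (Fin n → ℂ) x = 0) :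
    x = 0 :=
  powMapG_injOn_of N q m n lam (forms M h lam hanti hlam) x hx h0

end Vale.Agent.P181.FL2.H605
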